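import Vale.Agent.P283R.Az.Zr
import Vale.Agent.P283R.Tp.Der
import Vale.Agent.P283R.H.Adf
import Vale.Agent.P283R.Br.Idn
import Vale.Agent.P287D.Cb.Row

/-!
# P283R, block AZ: a frame at a prime divisor of the zero scheme of a function
-/

set_option linter.all false

open Set CategoryTheory AlgebraicGeometry
open Vale.Agent.P289 Vale.Agent.P289.H219 Vale.Agent.P270L Vale.Agent.P283M.Am Vale.Agent.P299.G

noncomputable section

namespace Vale.Agent.P283R.Az.F87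

open Vale.Agent.P287D Vale.Agent.P283M Vale.Agent.P283M.Br Vale.Agent.P283M.Stm.Var
open Vale.Agent.P297Z Vale.Agent.P283R.Br

variable {S X : Stm.Var}

theorem open_reg (a : X.K) : IsOpen {x : X.X | RegAt a x} := by
  refine isOpen_iff_forall_mem_open.2 ?_
  rintro x ⟨c, rfl⟩
  obtain ⟨U, hx, σ, rfl⟩ := X.X.presheaf.germ_exist c
  have : Nonempty U := ⟨⟨x, hx⟩⟩
  exact ⟨U, fun p hp => ⟨_, (P289.H594.toK_germ U p hp σ).trans
    (P289.H594.toK_germ U x hx σ).symm⟩, U.isOpen, hx⟩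

theorem ex_bs {V : X.X.Opens} (hV : IsAffineOpen V) {x : X.X} (hx : x ∈ V) :
    ∃ z ∈ V, ∃ A χ, Bs (𝟙 X.X) (RingEquiv.refl X.K) V z A χ := by
  have := LocallyOfFiniteType.jacobsonSpace X.str
  obtain ⟨z, hz, c⟩ := nonempty_inter_closedPoints (Z := (V : Set X.X)) ⟨x, hx⟩
    V.isOpen.isLocallyClosed
  exact ⟨z, hz, exists_bs ctr_id pb_id hV hz c⟩

/-- an affine chart which contains given regular functions -/
theorem chart {N : ℕ} (hK : FF X.K N) (x : Pt X.X) (w : Finset X.K) (hw : ∀ a ∈ w, RegAt a x) :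
    ∃ A : Subalgebra ℂ X.K, Aff N A ∧ (∀ a ∈ w, a ∈ A) ∧ (∀ a ∈ A, RegAt a x) ∧
      ∀ x' : Pt X.X, x' ⤳ x → ∀ g, RegAt g x' → ∃ a ∈ A, ∃ b ∈ A, UnAt b x' ∧ g = a / b := by
  obtain ⟨_, ⟨V, hV, rfl⟩, hx, le⟩ := X.X.isBasis_affineOpens.exists_subset_of_mem_open
    (show (x : X.X) ∈ ⋂ a ∈ w, {p : X.X | RegAt a p} from mem_iInter₂.2 hw)
    (isOpen_biInter_finset fun a _ => open_reg a)
  obtain ⟨z, hz, A, χ, b⟩ := ex_bs hV hx
  exact ⟨A, ⟨hK, b.fg, Et.bs_fr b hV hz⟩,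
    fun a ha => (b.mem a).2 fun p hp => mem_iInter₂.1 (le hp) a ha,
    fun a ha => (b.mem a).1 ha x hx, fun x' s g hg => b.frac hV (s.mem_open V.isOpen hx) hg⟩

theorem kap_cast {K : Type} [Field K] [Algebra ℂ K] {a b : ℕ} (h : a = b) (y : Fin b → K) :
    kap (fun k => y (Fin.cast h k)) = kap y := by
  subst h
  rfl

theorem alg_of {L : Type} [Field L] [Algebra ℂ L] {r : ℕ} {v : Fin r → L}
    (h : IsTranscendenceBasis ℂ v) (a : L) : ∃ q : Polynomial (MvPolynomial (Fin r) ℂ), q ≠ 0 ∧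
      q.eval₂ (MvPolynomial.aeval v : MvPolynomial (Fin r) ℂ →ₐ[ℂ] L).toRingHom a = 0 := by
  obtain ⟨q, q0, e⟩ := h.isAlgebraic.isAlgebraic a
  refine ⟨q.map h.1.aevalEquiv.symm.toRingEquiv.toRingHom, by
    rwa [Ne, Polynomial.map_eq_zero_iff h.1.aevalEquiv.symm.injective], ?_⟩
  rw [Polynomial.eval₂_map, ← e, Polynomial.aeval_def]
  congr 1
  ext c
  obtain ⟨c, rfl⟩ := h.1.aevalEquiv.surjective c
  simp

variable {i : S.X ⟶ X.X} {t : X.K} {P : Pl X.K} {j : S.K →+* P.κ} {n : ℕ}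

/-- the frame -/
theorem frame (h : Zr i t P j) (hK : FF X.K (n + 2)) (y : S.PrimeDiv) {Q : Pl P.κ} {Q' : Pl S.K}
    (l : Lies j Q Q') (q : Is (RingEquiv.refl S.K) y Q') :
    ∃ z : Fin (n + 1) → X.K, (∀ k, z k ∈ P.ring) ∧ Frm (fun k => P.rd (z k)) ∧
      kap (fun k => P.rd (z k)) Q = 0 ∧ ∀ E : X.PrimeDiv, E.1 ⤳ y.1.map i → ∀ R,
        Is (RingEquiv.refl X.K) E R → kap (Fin.cons t z : Fin (n + 2) → X.K) R = 0 := by
  classical
  have hκ := Bm.ff_κ hK P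
  have lift : ∀ u ∈ Q.ring, ∃ g, RegAt g (y.1.map i) ∧ P.rd g = u := fun u hu => by
    obtain ⟨g', rfl⟩ := h.sur u
    obtain ⟨g, a, b⟩ := h.up y.1 g' ((q g').1 ((l g').2 hu))
    exact ⟨g, a, b.symm⟩
  have dn : ∀ g, RegAt g (y.1.map i) →
      P.rd g ∈ Q.ring ∧ (Q.rd (P.rd g) ≠ 0 ↔ UnAt g (y.1.map i)) := fun g hg => by
    obtain ⟨g', a, b, c⟩ := h.dn hg
    have m := (q g').2 a
    refine ⟨b ▸ (l g').1 m, ?_⟩
    rw [← b, ← c, ← l.isRd g' m, map_ne_zero]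
    exact ⟨un_of_rd q.dom a, q.dom.rd⟩
  obtain ⟨v, v1, v2⟩ := Bm.exists_basis hκ Q
  choose z z1 z2 using fun k => lift (v k) (v1 k)
  obtain ⟨s, s1, s2⟩ := lift Q.t (Cb.t_mem Q)
  obtain ⟨A, af, wA, rA, fA⟩ := chart (N := 2 + n) (add_comm n 2 ▸ hK) (y.1.map i)
    (insert t (insert s (Finset.univ.image z))) (by
      simp only [Finset.mem_insert, Finset.mem_image]
      rintro a (rfl | rfl | ⟨k, -, rfl⟩)
      exacts [h.reg _, s1, z1 k])
  have mP : ∀ a ∈ A, a ∈ P.ring := fun a ha => h.mem (rA a ha)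
  let φ₁ := Bm.rdh P A mP
  let φ : A →ₐ[ℂ] Q.κ := (Bm.rdh Q φ₁.range (by
    rintro _ ⟨a, rfl⟩
    exact (dn a (rA a a.2)).1)).comp φ₁.rangeRestrict
  have eφ : ∀ a : A, φ a = Q.rd (P.rd a) := fun a => rfl
  have lo : ∀ g, RegAt g (y.1.map i) → g ∈ Lo A (RingHom.ker φ) := fun g hg => by
    obtain ⟨a, ha, b, hb, u, e⟩ := fA _ specializes_rfl g hg
    exact ⟨⟨a, ha⟩, ⟨b, hb⟩, (dn b (rA b hb)).2.2 u, e⟩
  let zA : Fin n → A := fun k => ⟨z k, wA _ (by simp)⟩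
  have ez : ∀ k, φ (zA k) = Q.rd (v k) := fun k => (eφ _).trans (congrArg Q.rd (z2 k))
  have r0 : Q.rd 0 = 0 := (Bm.rd_zero_iff Q (zero_mem _)).2 (.inl rfl)
  have par : Par A (RingHom.ker φ) ![t, s] zA := by
    refine ⟨af, RingHom.ker_isPrime φ, fun k => ?_, fun a ha => ?_, fun p hp => ?_, fun a => ?_⟩
    · fin_cases k
      · exact ⟨⟨t, wA _ (by simp)⟩, show Q.rd (P.rd t) = 0 by rw [h.van, r0], rfl⟩
      · refine ⟨⟨s, wA _ (by simp)⟩, show Q.rd (P.rd s) = 0 from ?_, rfl⟩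
        rw [s2]
        exact (Bm.rd_zero_iff Q (Cb.t_mem Q)).2 (.inr (by rw [Q.ord_t]; norm_num))
    · have m := (dn a (rA a a.2)).1
      have m' : P.rd a / Q.t ∈ Q.ring := by
        rcases eq_or_ne (P.rd a) 0 with e | e
        · rw [e, zero_div]; exact zero_mem _
        · have := ((Bm.rd_zero_iff Q m).1 ha).resolve_left e
          refine (Pl.ord_nonneg_iff Q.toPlace (div_ne_zero e Q.t_ne)).1 ?_
          rw [Pl.ord_div _ e Q.t_ne, Q.ord_t]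
          omega
      obtain ⟨c, c1, c2⟩ := lift _ m'
      have k := h.ker y.1 (a - c * s) ((lr _).sub_mem (rA a a.2) (reg_mul c1 s1)) (by
        rw [Cb.rd_sub (mP a a.2) (mul_mem (h.mem c1) (h.mem s1)), Cb.rd_mul (h.mem c1) (h.mem s1),
          c2, s2, div_mul_cancel₀ _ Q.t_ne, sub_self])
      refine ⟨![(a - c * s) / t, c], fun k' => ?_, ?_⟩
      · fin_cases k'
        exacts [lo _ k, lo _ c1]
      · simp [Fin.sum_univ_two, div_mul_cancel₀ _ h.t0]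
    · refine v2.1 ?_
      rw [map_zero, ← funext ez, ← MvPolynomial.comp_aeval_apply]
      exact hp
    · obtain ⟨p, p0, e⟩ := alg_of v2 (φ a)
      refine ⟨p, p0, ?_⟩
      rw [RingHom.mem_ker]
      refine (Polynomial.hom_eval₂ p _ φ.toRingHom a).trans (Eq.trans ?_ e)
      congr 1
      ext c <;> simp [ez]
  obtain ⟨D, -, -, k⟩ := der 2 n X.K A _ _ _ par
  have ad : Cb.Ada Q Q.t v := ⟨Q.ord_t, v1, v2.1⟩
  have e1 : (fun k => P.rd ((Fin.cons s z : Fin (n + 1) → X.K) k)) =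
      (Fin.cons Q.t v : Fin (n + 1) → P.κ) := funext fun k => by
    refine Fin.cases ?_ (fun k => ?_) k
    exacts [s2, z2 k]
  refine ⟨Fin.cons s z, fun k => ?_, ?_, ?_, fun E hE R e => ?_⟩
  · refine Fin.cases ?_ (fun k => ?_) k
    exacts [h.mem s1, h.mem (z1 k)]
  · rw [e1]
    exact let ⟨D, a⟩ := ad.ad hκ; ⟨D, a.fr⟩
  · rw [e1]
    exact ad.kap hκ
  have mR : ∀ a ∈ A, a ∈ R.ring := fun a ha => (e a).2 (reg_gen hE (rA a ha))
  have := k R ⟨RingHom.ker (Bm.rdh R A mR), fun a ha => by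
    by_contra c
    have u := (dn a (rA a a.2)).2.1 c
    exact e.dom.rd ⟨u.1, reg_gen hE u.2.1, reg_gen hE u.2.2⟩ ha,
    fun a => ⟨mR a a.2, Iff.rfl⟩, fun g hg => by
      obtain ⟨a, ha, b, hb, u, e'⟩ := fA _ hE g ((e g).1 hg)
      exact ⟨⟨a, ha⟩, ⟨b, hb⟩, e.dom.rd u, e'⟩⟩
  rw [← kap_cast (add_comm n 2)] at this
  rw [← this]
  congr 1
  funext k
  refine Fin.cases ?_ (fun k => Fin.cases ?_ (fun k => ?_) k) k
  · exact (Fin.append_left ![t, s] _ 0).symm.trans (congrArg _ (Fin.ext (by simp)))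
  · exact (Fin.append_left ![t, s] _ 1).symm.trans (congrArg _ (Fin.ext (by simp)))
  · exact (Fin.append_right ![t, s] (fun i => (zA i : X.K)) k).symm.trans
      (congrArg _ (Fin.ext (by simp; omega)))

end Vale.Agent.P283R.Az.F87
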