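import Vale.Agent.P283R.Az.Zr
import Vale.Agent.P283R.Tp.Der
import Vale.Agent.P283R.H.Adf

/-!
# P283R, block AZ: the frame at a prime divisor of the zero scheme
-/

set_option linter.all false

open Set CategoryTheory AlgebraicGeometry
open Vale.Agent.P289 Vale.Agent.P289.H219 Vale.Agent.P270L Vale.Agent.P283M.Am Vale.Agent.P299.G
open Vale.Agent.P285N.Brep (jac Fr)

noncomputable section

namespace Vale.Agent.P283R.Az

open Vale.Agent.P287D Vale.Agent.P283M Vale.Agent.P283M.Br Vale.Agent.P283M.Stm.Var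
open Vale.Agent.P297Z Vale.Agent.P283R.Br

variable {S X : Stm.Var} {i : S.X ⟶ X.X} {t g : X.K} {P : Pl X.K} {j : S.K →+* P.κ} {s : Pt S.X}
  {n : ℕ} {Q : Pl P.κ} {Q' : Pl S.K}

theorem Zr.mem2 (h : Zr i t P j) (l : Lies j Q Q') (d : Dom Q'.ring s) (hg : RegAt g (s.map i)) :
    P.rd g ∈ Q.ring := by
  obtain ⟨g', r, e, -⟩ := h.dn hg
  exact e ▸ (l _).1 (d _ r).1

theorem Zr.un_iff (h : Zr i t P j) (l : Lies j Q Q') (d : Dom Q'.ring s)
    (hg : RegAt g (s.map i)) : Q.rd (P.rd g) ≠ 0 ↔ UnAt g (s.map i) := by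
  obtain ⟨g', r, e, u⟩ := h.dn hg
  rw [← u, ← e, Ne, Bm.rd_zero_iff Q ((l _).1 (d _ r).1), map_eq_zero, h.e_one l,
    ← Bm.rd_zero_iff Q' (d _ r).1]
  exact ⟨un_of_rd d r, d.rd⟩

theorem alg_of {A L : Type} [CommRing A] [Algebra ℂ A] [Field L] [Algebra ℂ L] (ρ : A →ₐ[ℂ] L)
    (hL : Algebra.trdeg ℂ L = n) {u : Fin n → A} (ind : AlgebraicIndependent ℂ fun k => ρ (u k))
    (a : A) : ∃ q : Polynomial (MvPolynomial (Fin n) ℂ), q ≠ 0 ∧
      q.eval₂ (MvPolynomial.aeval u : MvPolynomial (Fin n) ℂ →ₐ[ℂ] A).toRingHom a ∈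
        RingHom.ker ρ := by
  have b := ind.isTranscendenceBasis_of_trdeg_le_of_finite (by simp [hL])
  obtain ⟨q, q0, hq⟩ := b.isAlgebraic.isAlgebraic (ρ a)
  refine ⟨q.map ind.aevalEquiv.symm.toRingEquiv.toRingHom, fun e => q0 (Polynomial.map_injective _
    ind.aevalEquiv.symm.injective (e.trans (Polynomial.map_zero _).symm)), ?_⟩
  rw [RingHom.mem_ker, Polynomial.eval₂_map]
  refine ((Polynomial.hom_eval₂ q _ (ρ : A →+* L) a).trans ?_).trans hq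
  rw [Polynomial.aeval_def]
  congr 1
  refine RingHom.ext fun w => ?_
  obtain ⟨w, rfl⟩ := ind.aevalEquiv.surjective w
  refine Eq.trans ?_ (ind.algebraMap_aevalEquiv w).symm
  rw [← MvPolynomial.comp_aeval]
  exact congrArg (fun v => ρ (MvPolynomial.aeval u v)) (ind.aevalEquiv.symm_apply_apply w)

theorem Zr.frame (h : Zr i t P j) (hK : FF X.K (n + 2)) {E : S.PrimeDiv} (l : Lies j Q Q')
    (q : Is (RingEquiv.refl S.K) E Q') : ∃ y : Fin (n + 1) → X.K, (∀ k, y k ∈ P.ring) ∧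
      P283R.Frm (fun k => P.rd (y k)) ∧ kap (fun k => P.rd (y k)) Q = 0 ∧
      ∀ (E' : X.PrimeDiv) (R : Pl X.K), E'.1 ⤳ E.1.map i → Is (RingEquiv.refl X.K) E' R →
        kap (Fin.cons t y : Fin (n + 2) → X.K) R = 0 := by
  classical
  have hκ := Bm.ff_κ hK P
  obtain ⟨u, hu⟩ := Cb.exists_ada hκ Q
  have lift : ∀ b ∈ Q.ring, ∃ a, RegAt a (E.1.map i) ∧ P.rd a = b := fun b hb => by
    obtain ⟨b, rfl⟩ := h.sur b
    obtain ⟨a, r, e⟩ := h.up E.1 b ((q b).1 ((l b).2 hb))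
    exact ⟨a, r, e.symm⟩
  choose y hy ey using fun k => lift _ (hu.cons_mem k)
  have ey' : (fun k => P.rd (y k)) = Fin.cons Q.t u := funext ey
  obtain ⟨D', hD'⟩ := hu.ad hκ
  have fr : P283R.Frm fun k => P.rd (y k) := ey' ▸ ⟨D', hD'.fr⟩
  refine ⟨y, fun k => h.mem (hy k), fr, ?_, fun E' R sp r => ?_⟩
  · rw [ey', Cb.kap_eq hD', Cb.jac_self hD'.fr]
    simp
  obtain ⟨⟨D, hD⟩, -⟩ := H.adf0 hK P (φ := t) (by rw [h.ord]; exact one_ne_zero)
    (fun k => h.mem (hy k)) fr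
  obtain ⟨_, ⟨U, hU, rfl⟩, hx, -⟩ := X.X.isBasis_affineOpens.exists_subset_of_mem_open
    (Set.mem_univ (E.1.map i)) isOpen_univ
  obtain ⟨A, a1, a2⟩ := (Am.str X).fg hU hx
  set z : Fin (n + 2) → X.K := Fin.cons t y with hz
  have zr : ∀ k, RegAt (z k) (E.1.map i) := Fin.cases (h.reg _) hy
  let T := Algebra.adjoin ℂ ((A ∪ Finset.univ.image z : Finset X.K) : Set X.K)
  have zT : ∀ k, z k ∈ T := fun k => Algebra.subset_adjoin (by simp)
  have uT : ∀ f ∈ Am.reg U, f ∈ T := fun f hf =>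
    Algebra.adjoin_mono (Finset.coe_subset.2 Finset.subset_union_left) (a2 f hf)
  have Tr : ∀ f ∈ T, RegAt f (E.1.map i) := fun f hf => reg_adjoin (fun a ha => by
    rcases Finset.mem_union.1 ha with k | k
    · exact mem_reg.1 (a1 a k) _ hx
    · obtain ⟨m, -, rfl⟩ := Finset.mem_image.1 k
      exact zr m) hf
  have fc : ∀ x ∈ U, ∀ f, RegAt f x → ∃ a b : T, UnAt (b : X.K) x ∧ f = a / b := fun x hx f hf =>
    let ⟨b, b1, b2, b3⟩ := frac hU hx hf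
    ⟨⟨_, uT _ b3⟩, ⟨b, uT _ b1⟩, b2, (mul_div_cancel_left₀ f b2.1).symm⟩
  let ρ₁ := Bm.rdh P T fun f hf => h.mem (Tr f hf)
  let ρ : T →ₐ[ℂ] Q.κ := (Bm.rdh Q ρ₁.range (by
    rintro _ ⟨f, rfl⟩; exact h.mem2 l q.dom (Tr f f.2))).comp ρ₁.rangeRestrict
  have eρ : ∀ f : T, ρ f = Q.rd (P.rd f) := fun _ => rfl
  have un : ∀ f : T, f ∉ RingHom.ker ρ ↔ UnAt (f : X.K) (E.1.map i) := fun f =>
    h.un_iff l q.dom (Tr f f.2)
  have lo : ∀ f, RegAt f (E.1.map i) → f ∈ Lo T (RingHom.ker ρ) := fun f hf =>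
    let ⟨a, b, c, e⟩ := fc _ hx f hf; ⟨a, b, (un b).2 c, e⟩
  have hp : (RingHom.ker ρ).IsPrime := RingHom.ker_isPrime _
  have q0 : Q.rd Q.t = 0 := (Bm.rd_zero_iff Q (hu.cons_mem 0)).2 (.inr (hu.ord ▸ one_pos : 0 < Q.ord Q.t))
  have ind : AlgebraicIndependent ℂ fun k : Fin n => ρ ⟨z k.succ.succ, zT _⟩ := by
    convert hu.ind using 2 with k
    exact congrArg Q.rd (ey k.succ)
  have par : Par T (RingHom.ker ρ) ![t, y 0] fun k : Fin n => ⟨z k.succ.succ, zT _⟩ := by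
    refine ⟨⟨by rwa [add_comm], ⟨_, rfl⟩, fun f => ?_⟩, hp, ?_, fun a ha => ?_, fun w hw => ?_,
      alg_of ρ (Bm.trdeg_κ hκ Q) ind⟩
    · obtain ⟨a, b, -, e⟩ := fc _ ((genericPoint_specializes _).mem_open U.isOpen hx) f
        (Vale.Agent.P270L.S.mem_loc_gen f)
      exact ⟨a, b, e⟩
    · refine Fin.forall_fin_two.2 ⟨⟨⟨t, zT 0⟩, ?_, rfl⟩, ⟨⟨y 0, zT 1⟩, ?_, rfl⟩⟩
      · rw [RingHom.mem_ker, eρ, h.van]
        simpa using Bm.rd_const Q 0
      · rw [RingHom.mem_ker, eρ, ey]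
        exact q0
    · have m := h.mem2 l q.dom (Tr a a.2)
      have m' : P.rd a / Q.t ∈ Q.ring := by
        rcases (Bm.rd_zero_iff Q m).1 ha with k | k
        · rw [k, zero_div]; exact zero_mem _
        · have k0 : P.rd a ≠ 0 := fun e => by simp [e] at k
          rw [← Pl.ord_nonneg_iff _ (div_ne_zero k0 Q.t_ne), Pl.ord_div _ k0 Q.t_ne, Q.ord_t]
          omega
      obtain ⟨c, c1, c2⟩ := lift _ m'
      have r1 := reg_mul c1 (hy 0)
      have r2 : RegAt ((a : X.K) - c * y 0) (E.1.map i) := (lr _).sub_mem (Tr a a.2) r1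
      have k := h.ker _ _ r2 (by
        have := Bm.rd_add P (h.mem r2) (h.mem r1)
        rw [sub_add_cancel, Bm.rd_mul P (h.mem c1) (h.mem (hy 0)), c2, ey, Fin.cons_zero,
          div_mul_cancel₀ _ Q.t_ne] at this
        exact left_eq_add.1 (this.trans (add_comm _ _)))
      refine ⟨![((a : X.K) - c * y 0) / t, c], Fin.forall_fin_two.2 ⟨lo _ k, lo _ c1⟩, ?_⟩
      rw [Fin.sum_univ_two]
      exact ((congrArg (· + c * y 0) (div_mul_cancel₀ _ h.t0)).trans (sub_add_cancel _ _)).symm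
    · refine algebraicIndependent_iff.1 ind w ?_
      rw [← MvPolynomial.comp_aeval]
      exact hw
  have one : ∀ a b, D a (z b) ∈ Dr13.loc hp := fun a b => by
    rw [hD.dual]
    split_ifs
    exacts [one_mem _, zero_mem _]
  refine Dr13.der_kap hp hD (fun k => lo _ (zr k)) (fun k a ha => ?_) R ?_
  · obtain ⟨c, hc, e⟩ := Dr13.gen par ha
    rw [e]
    refine (Dr13.loc hp).sum_mem fun m _ => mul_mem (hc m) ?_
    refine Fin.addCases (fun m => ?_) (fun m => ?_) m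
    · rw [Fin.append_left]
      fin_cases m
      exacts [one k 0, one k 1]
    · rw [Fin.append_right]
      exact one k m.succ.succ
  · have mR : ∀ f ∈ T, f ∈ R.ring := fun f hf => (r f).2 (reg_gen sp (Tr f hf))
    refine ⟨RingHom.ker (Bm.rdh R T mR), fun a ha => ?_, fun a => ⟨mR a a.2, Iff.rfl⟩,
      fun a ha => ?_⟩
    · by_contra c
      have k := (un a).1 c
      exact r.dom.rd ⟨k.1, reg_gen sp k.2.1, reg_gen sp k.2.2⟩ ha
    · obtain ⟨b, c, k, e⟩ := fc _ (sp.mem_open U.isOpen hx) a ((r a).1 ha)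
      exact ⟨b, c, r.dom.rd k, e⟩

end Vale.Agent.P283R.Az
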