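import Vale.Agent.P283M.Kl.Bas
import Vale.Agent.P287D.Ad.Main

/-!
# P283R, block AZ: the restriction of a b-divisor is local
-/

open Set

noncomputable section

namespace Vale.Agent.P283R.Az

open Vale.Agent.P287D Vale.Agent.P283M

/-- **LOCRES** -/
theorem locres {K : Type} [Field K] [Algebra ℂ K] {n : ℕ} (hK : FF K (n + 1)) (P : Pl K)
    (w : Finset K) {β β' : BD K} (hβ : β ∈ Car K) (hβ' : β' ∈ Car K)
    (h : ∀ R, Ov w R → β R = β' R) (hP : Ov w P) (Q : Pl P.κ) (hQ : ∀ a ∈ w, P.rd a ∈ Q.ring) :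
    res P β Q = res P β' Q := by
  classical
  obtain ⟨R, -, k⟩ := Aj.exists_fol hK P Q (B := {inf w, β, β'}) (toFinite _)
    (insert_subset (smp_mx _).car (insert_subset hβ (singleton_subset_iff.2 hβ')))
  have k0 := k (inf w) (by simp)
  have k1 := k β (by simp)
  have k2 := k β' (by simp)
  have z : inf (w.image P.rd) Q = 0 := Kl.inf_zero.2 fun a ha => by
    obtain ⟨b, hb, rfl⟩ := Finset.mem_image.1 ha
    exact hQ b hb
  rw [Kl.res_inf hK hP, Kl.inf_zero.2 hP, z, zero_mul, add_zero] at k0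
  rw [h R (Kl.inf_zero.1 k0), h P hP] at k1
  linarith

end Vale.Agent.P283R.Az
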