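import Vale.Agent.P283R.Az.Frm
import Vale.Agent.P283M.Br.Brg

/-!
# P283R, block AZ: restriction to the zero scheme, adjunction at its prime divisors
-/

set_option linter.all false

open Set CategoryTheory AlgebraicGeometry
open Vale.Agent.P289 Vale.Agent.P289.H219 Vale.Agent.P270L Vale.Agent.P283M.Am Vale.Agent.P299.G
open Vale.Agent.P285N.Brep (jac Fr)

noncomputable section

namespace Vale.Agent.P283R.Az

open Vale.Agent.P287D Vale.Agent.P283M Vale.Agent.P283M.Br Vale.Agent.P283M.Stm.Var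
open Vale.Agent.P297Z Vale.Agent.P283R.Br

section hm

variable {K : Type} [Field K] {ρ : K → ℝ} {a b : K}

/-- an additive function on the nonzero elements -/
def Hm (ρ : K → ℝ) : Prop := ∀ a b, a ≠ 0 → b ≠ 0 → ρ (a * b) = ρ a + ρ b

theorem Hm.pow (h : Hm ρ) (a0 : a ≠ 0) (k : ℕ) : ρ (a ^ k) = k * ρ a := by
  induction k with
  | zero =>
    have := h 1 1 one_ne_zero one_ne_zero
    rw [mul_one] at this
    rw [pow_zero, Nat.cast_zero]
    linarith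
  | succ k ih => rw [pow_succ, h _ _ (pow_ne_zero _ a0) a0, ih, Nat.cast_succ]; ring

theorem Hm.div (h : Hm ρ) (a0 : a ≠ 0) (b0 : b ≠ 0) : ρ (a / b) = ρ a - ρ b := by
  have := h _ _ (div_ne_zero a0 b0) b0
  rw [div_mul_cancel₀ _ b0] at this
  linarith

theorem Hm.mix (h : Hm ρ) {c : K} (a0 : a ≠ 0) (b0 : b ≠ 0) (c0 : c ≠ 0) (k : ℕ) :
    ρ (a * (b / c) ^ k) = ρ a + k * (ρ b - ρ c) := by
  rw [h _ _ a0 (pow_ne_zero _ (div_ne_zero b0 c0)), h.pow (div_ne_zero b0 c0), h.div b0 c0]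

variable [Algebra ℂ K] {n : ℕ}

theorem hm_ord (R : Pl K) : Hm fun a => (R.ord a : ℝ) := fun a b a0 b0 => by
  simp only [Pl.ord_mul _ a0 b0, Int.cast_add]

theorem hm_res (hK : FF K (n + 1)) (P : Pl K) (Q : Pl P.κ) : Hm fun a => res P (dv a) Q :=
  fun a b a0 b0 => by
    simp only [dv_mul a0 b0, Aj.res_add hK P (dv_mem_Car a) (dv_mem_Car b), Pi.add_apply]

theorem res_neg (hK : FF K (n + 1)) (P : Pl K) {β : BD K} (h : β ∈ Car K) :
    res P (-β) = -res P β := by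
  rw [← neg_one_smul ℝ β, Aj.res_smul hK P _ h, neg_one_smul]

theorem exists_res (hK : FF K (n + 1)) (P : Pl K) (a0 : a ≠ 0) :
    ∃ b : P.κ, b ≠ 0 ∧ res P (dv a) = dv b :=
  ⟨_, Aj.rd_ne (Aj.ord_nrm P a0).1 (Aj.ord_nrm P a0).2, Aj.res_dv hK P a0⟩

theorem exists_adj (hK : FF K (n + 1)) (P : Pl K) (a0 : a ≠ 0) :
    ∃ b : P.κ, b ≠ 0 ∧ adj n P (dv a) = dv b := by
  obtain ⟨j, j', ⟨j0, j0', -⟩, e⟩ := adj_eq hK P
  obtain ⟨b, b0, k⟩ := exists_res hK P (mul_ne_zero a0 j0)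
  refine ⟨b * j'⁻¹, mul_ne_zero b0 (inv_ne_zero j0'), ?_⟩
  rw [e, ← dv_mul a0 j0, k, dv_mul b0 (inv_ne_zero j0'), dv_inv, sub_eq_add_neg]

end hm

variable {S X : Stm.Var} {i : S.X ⟶ X.X} {t g : X.K} {P : Pl X.K} {j : S.K →+* P.κ} {s : Pt S.X}
  {n : ℕ} {Q : Pl P.κ} {Q' : Pl S.K}

/-- Hartogs -/
theorem Hm.eq {ρ : X.K → ℝ} (h : Hm ρ) {x : Pt X.X} (un : ∀ u, UnAt u x → ρ u = 0) {a b : X.K}
    (a0 : a ≠ 0) (b0 : b ≠ 0) {m k : ℕ} (e : ∀ (E : X.PrimeDiv) (R : Pl X.K), E.1 ⤳ x →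
      Is (RingEquiv.refl X.K) E R → (∀ g, ord g E = R.ord g) →
      (m : ℝ) * R.ord a = k * R.ord b) : m * ρ a = k * ρ b := by
  have am := pow_ne_zero m a0
  have bk := pow_ne_zero k b0
  have u : ∀ E : X.PrimeDiv, E.1 ⤳ x → ord (a ^ m / b ^ k) E = 0 ∧ ord (a ^ m / b ^ k)⁻¹ E = 0 :=
    fun E hE => by
      obtain ⟨R, r, o⟩ := pl_of plc E
      have c := (hm_ord R).div am bk
      rw [(hm_ord R).pow a0, (hm_ord R).pow b0, e E R hE r o, sub_self, Int.cast_eq_zero] at c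
      rw [o, o, Pl.ord_inv, c]
      exact ⟨rfl, rfl⟩
  have c := un _ ⟨div_ne_zero am bk, har X _ x fun E hE => (u E hE).1.ge,
    har X _ x fun E hE => (u E hE).2.ge⟩
  rw [h.div am bk, h.pow a0, h.pow b0] at c
  linarith

theorem Zr.res_un (h : Zr i t P j) (hK : FF X.K (n + 1)) (l : Lies j Q Q') (d : Dom Q'.ring s)
    (u : X.K) (hu : UnAt u (s.map i)) : res P (dv u) Q = 0 := by
  have a := h.mem2 l d hu.2.2
  rw [Bm.rd_inv P (h.mem hu.2.1) (h.mem hu.2.2) hu.1] at a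
  rw [H.res_dv0 hK P (Pl.ord_unit _ (h.mem hu.2.1) (h.mem hu.2.2)), dv_apply,
    Pl.ord_unit _ (h.mem2 l d hu.2.1) a, Int.cast_zero]

theorem Zr.res_mx (h : Zr i t P j) (hK : FF X.K (n + 1)) (l : Lies j Q Q') (d : Dom Q'.ring s)
    {w : Finset X.K} (hg : GenAt w g (s.map i)) : res P (mx w) Q = -res P (dv g) Q := by
  classical
  have z : P.mz w = -P.ord g := P.mz_eq hg.1 hg.2.1 fun f hf f0 => by
    have := Pl.ord_nonneg_of_mem _ (h.mem (hg.2.2 f hf))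
    rw [Pl.ord_div _ f0 hg.2.1] at this
    omega
  obtain ⟨k0, k1⟩ := Aj.ord_nrm P hg.2.1
  have r0 := Aj.rd_ne k0 k1
  have e : ∀ f, f * P.t ^ P.mz w = f / g * (g / P.t ^ P.ord g) := fun f => by
    rw [z, zpow_neg, div_mul_div_cancel₀ hg.2.1, div_eq_mul_inv]
  rw [Aj.res_mx hK, Aj.res_dv hK P hg.2.1, mx_apply, dv_apply, ← Int.cast_neg, Int.cast_inj]
  refine Q.mz_eq (Finset.mem_image.2 ⟨g, hg.1, by rw [e, div_self hg.2.1, one_mul]⟩) r0
    fun b hb b0 => ?_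
  obtain ⟨f, hf, rfl⟩ := Finset.mem_image.1 hb
  rw [e, Bm.rd_mul P (h.mem (hg.2.2 f hf)) ((Pl.ord_nonneg_iff _ k0).1 k1.ge)] at b0 ⊢
  rw [Pl.ord_mul _ (left_ne_zero_of_mul b0) r0]
  have := Pl.ord_nonneg_of_mem _ (h.mem2 l d (hg.2.2 f hf))
  omega

theorem Zr.res_gam (h : Zr i t P j) (hK : FF X.K (n + 1)) (l : Lies j Q Q') (d : Dom Q'.ring s)
    {w w' : Finset X.K} {g' : X.K} (hg : GenAt w g (s.map i)) (hg' : GenAt w' g' (s.map i))
    (m : ℕ) (f : X.K) :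
    res P (gam m w w' f) Q = res P (dv (g / g')) Q / m - res P (dv f) Q := by
  have c : ∀ w : Finset X.K, mx w ∈ Car X.K := fun w => Submodule.subset_span ⟨w, rfl⟩
  have c1 := sub_mem (c w) (c w')
  have c2 := Submodule.smul_mem _ (m : ℝ)⁻¹ c1
  rw [gam, sub_eq_add_neg, Aj.res_add hK P (neg_mem c2) (neg_mem (dv_mem_Car f)), res_neg hK P c2,
    res_neg hK P (dv_mem_Car f), Aj.res_smul hK P _ c1, sub_eq_add_neg,
    Aj.res_add hK P (c w) (neg_mem (c w')), res_neg hK P (c w'), (hm_res hK P Q).div hg.2.1 hg'.2.1]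
  simp only [Pi.add_apply, Pi.neg_apply, Pi.smul_apply, smul_eq_mul, h.res_mx hK l d hg,
    h.res_mx hK l d hg']
  ring

theorem Zr.ord_val (h : Zr i t P j) (a : St X.X (s.map i))
    (a0 : toRat (P289.val (i.stalkMap s) a) ≠ 0) : toRat a ≠ 0 ∧ P.ord (toRat a) = 0 := by
  have m : toRat a ∈ P.ring := h.mem ⟨a, rfl⟩
  have k := mt (Bm.rd_zero_iff P m).2 (h.val s a ▸ (map_ne_zero j).2 a0)
  rw [not_or, not_lt] at k
  exact ⟨k.1, le_antisymm k.2 (Pl.ord_nonneg_of_mem _ m)⟩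

/-- adjunction at a prime divisor -/
theorem Zr.prime (h : Zr i t P j) (hK : FF X.K (n + 2)) {E : S.PrimeDiv} (l : Lies j Q Q')
    (q : Is (RingEquiv.refl S.K) E Q') {Ω : DForm ℂ X.K (n + 2)} {D : X.QDiv} {f G : X.K}
    (f0 : f ≠ 0) (fr : Br.Frm Ω f) {m k : ℕ} (m0 : 0 < m) (k0 : 0 < k)
    (hG : LocalEq (logCan Ω D) m G (E.1.map i)) {a : St X.X (E.1.map i)}
    (ha : LocalEq D k (toRat a) (E.1.map i)) (a0 : toRat (P289.val (i.stalkMap E.1) a) ≠ 0) :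
    cn P.κ (n + 1) Q - adj (n + 1) P (dv t) Q - (res P (dv G) Q / m - res P (dv f) Q) =
      -(Q'.ord (toRat (P289.val (i.stalkMap E.1) a)) / k) := by
  obtain ⟨y, y1, y2, y3, y4⟩ := h.frame hK l q
  obtain ⟨⟨δ, hδ⟩, -, -, e⟩ := H.adf0 hK P (φ := t) (by rw [h.ord]; exact one_ne_zero) y1 y2
  obtain ⟨c, c0, hc⟩ := Aj.kap_cn hδ
  have e1 := congrFun e Q
  rw [y3, hc, sub_add_cancel_left, add_comm (-dv c), (a4 _ _ hK P _ (dv_mem_Car t) _
    (neg_mem (dv_mem_Car c))).1, res_neg hK P (dv_mem_Car c)] at e1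
  have e2 := (hm_res hK P Q).eq (h.res_un hK l q.dom) (m := k) (k := m)
    (mul_ne_zero hG.1 (pow_ne_zero m (div_ne_zero c0 f0))) ha.1 fun E' R sp r o => by
      have b1 := hG.2 E' sp
      have b2 := ha.2 E' sp
      rw [o] at b1 b2
      have b1' : (R.ord G : ℝ) = m * (formOrd Ω (RingEquiv.refl X.K) E' + (D E' : ℝ)) := by
        rw [logCan] at b1
        exact_mod_cast b1
      have b2' : (R.ord (toRat a) : ℝ) = k * (D E' : ℝ) := by exact_mod_cast b2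
      have b3 := congrFun hc R
      rw [y4 E' R sp r, Pi.add_apply, dv_apply] at b3
      rw [(hm_ord R).mix hG.1 c0 f0, b1', b2', fr _ _ E' R r o]
      linear_combination (-(k : ℝ) * m) * b3
  rw [(hm_res hK P Q).mix hG.1 c0 f0, H.res_dv0 hK P (h.ord_val a a0).2, ← h.val, dv_apply,
    h.e_one l] at e2
  simp only [dsc, Pi.sub_apply, Pi.add_apply, Pi.neg_apply] at e1
  have m1 : (m : ℝ) ≠ 0 := Nat.cast_ne_zero.2 m0.ne'
  have k1 : (k : ℝ) ≠ 0 := Nat.cast_ne_zero.2 k0.ne'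
  field_simp
  linear_combination (k : ℝ) * m * e1 - e2

theorem exists_prime (hK : FF X.K (n + 1)) : Nonempty X.PrimeDiv := by
  by_contra c
  obtain ⟨_, ⟨U, hU, rfl⟩, hx, -⟩ := X.X.isBasis_affineOpens.exists_subset_of_mem_open
    (Set.mem_univ (genericPoint X.X)) isOpen_univ
  obtain ⟨A, -, a⟩ := (Am.str X).fg hU hx
  have : Algebra.FiniteType ℂ X.K := ⟨⟨A, eq_top_iff.2 fun f _ =>
    a f (mem_reg.2 fun x _ => har X f x fun E => (c ⟨E⟩).elim)⟩⟩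
  have := finite_of_finite_type_of_isJacobsonRing ℂ X.K
  have k := Bm.trdeg_eq hK
  rw [trdeg_eq_zero] at k
  exact absurd k.symm (by exact_mod_cast n.succ_ne_zero)

end Vale.Agent.P283R.Az
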