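import Vale.Agent.P283R.Et.Br

/-!
# P283R, block AZ: the place of the zero scheme of a function
-/

set_option linter.all false

open Set CategoryTheory AlgebraicGeometry
open Vale.Agent.P289 Vale.Agent.P289.H219 Vale.Agent.P270L Vale.Agent.P283M.Am Vale.Agent.P299.G

noncomputable section

namespace Vale.Agent.P283R.Az

open Vale.Agent.P287D Vale.Agent.P283M Vale.Agent.P283M.Br Vale.Agent.P283M.Stm.Var
open Vale.Agent.P297Z Vale.Agent.P283R.Br

variable {S X : Stm.Var}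

/-- `S` is the zero scheme of `t`, `P` is its place, `j` identifies the function fields -/
structure Zr (i : S.X ⟶ X.X) (t : X.K) (P : Pl X.K) (j : S.K →+* P.κ) : Prop where
  sur : Function.Surjective j
  cst : ∀ c, j (algebraMap ℂ S.K c) = algebraMap ℂ P.κ c
  t0 : t ≠ 0
  div : ∃ E : X.PrimeDiv, Is (RingEquiv.refl X.K) E P ∧ E.1 = Pt.map i (genericPoint S.X)
  val : ∀ (s : Pt S.X) (b : St X.X (s.map i)), j (toRat (val (i.stalkMap s) b)) = P.rd (toRat b)
  up : ∀ (s : Pt S.X) (g' : S.K), RegAt g' s → ∃ g, RegAt g (s.map i) ∧ j g' = P.rd g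
  ker : ∀ (s : Pt S.X) (g : X.K), RegAt g (s.map i) → P.rd g = 0 → RegAt (g / t) (s.map i)
  reg : ∀ s : Pt S.X, RegAt t (s.map i)
  van : P.rd t = 0

theorem exists_zr (i : S.X ⟶ X.X) [IsPreimmersion i] (ov : i ≫ X.str = S.str) {t : X.K}
    (t0 : t ≠ 0) (k : ∀ s : Pt S.X, ∃ a : St X.X (s.map i), toRat a = t ∧
      ∀ b, val (i.stalkMap s) b = 0 ↔ a ∣ b) : ∃ P j, Zr i t P j := by
  let η := genericPoint S.X
  let φ : X.X.presheaf.stalk (i η) →+* S.K := (i.stalkMap η).hom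
  have sφ : Function.Surjective φ := i.stalkMap_surjective η
  obtain ⟨a, ea, ka⟩ := k η
  have a0 : a ≠ 0 := fun e => t0 (by rw [← ea, e]; exact map_zero (toK (i η)))
  have km : RingHom.ker φ = IsLocalRing.maximalIdeal _ :=
    IsLocalRing.eq_maximalIdeal (RingHom.ker_isMaximal_of_surjective φ sφ)
  have ks : RingHom.ker φ = Ideal.span {a} :=
    Ideal.ext fun b => (ka b).trans Ideal.mem_span_singleton.symm
  have nf : ¬ IsField (X.X.presheaf.stalk (i η)) := fun h => a0 (by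
    have := IsLocalRing.isField_iff_maximalIdeal_eq.1 h
    rw [← km, ks] at this
    exact Ideal.span_singleton_eq_bot.1 this)
  have dv : IsDiscreteValuationRing (X.X.presheaf.stalk (i η)) :=
    ((IsDiscreteValuationRing.TFAE _ nf).out 0 4).2 (show (IsLocalRing.maximalIdeal _).IsPrincipal
      from ⟨⟨a, km.symm.trans ks⟩⟩)
  have c1 : Pt.CodimOne (i η : Pt X.X) := by
    have k3 := IsDiscreteValuationRing.ringKrullDim_eq_one (X.X.presheaf.stalk (i η))
    rw [ringKrullDim_stalk_eq_coheight] at k3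
    exact_mod_cast k3
  obtain ⟨P, p, -⟩ := pl_of plc (⟨i η, c1⟩ : X.PrimeDiv)
  have m : ∀ b, toK (i η) b ∈ P.ring := fun b => (p _).2 ⟨b, rfl⟩
  let ρ : X.X.presheaf.stalk (i η) →+* P.κ :=
    (IsLocalRing.residue P.ring).comp ((toK (i η)).codRestrict P.ring m)
  have eρ : ∀ b, ρ b = P.rd (toK (i η) b) := fun b => (Bm.rd_eq P (m b)).symm
  have le : RingHom.ker φ ≤ RingHom.ker ρ := fun b hb => by
    rw [km] at hb
    rw [RingHom.mem_ker, eρ]
    by_contra c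
    exact hb (Vale.Agent.P270L.S.un_toK.1 (un_of_rd p.dom ⟨b, rfl⟩ c))
  let j : S.K →+* P.κ := φ.liftOfSurjective sφ ⟨ρ, le⟩
  have ej : ∀ b, j (φ b) = P.rd (toK (i η) b) := fun b =>
    (φ.liftOfRightInverse_comp_apply _ _ ⟨ρ, le⟩ b).trans (eρ b)
  have v : ∀ (s : Pt S.X) (b : St X.X (s.map i)),
      j (toRat (val (i.stalkMap s) b)) = P.rd (toRat b) := fun y b => by
    have s : η ⤳ y := genericPoint_specializes y
    have h1 := toK_toStalk (s.map i.continuous) b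
    refine Eq.trans (congrArg j ?_) ((ej _).trans (congrArg P.rd h1))
    exact (Scheme.Hom.stalkSpecializes_stalkMap_apply i η y s b).symm
  have z : ∀ (s : Pt S.X) (b : St X.X (s.map i)), P.rd (toRat b) = 0 ↔ val (i.stalkMap s) b = 0 :=
    fun s b => by
      rw [← v, map_eq_zero]
      exact map_eq_zero_iff (toK s) (toK_injective s)
  refine ⟨P, j, fun u => ?_, fun c => ?_, t0, ⟨_, p, rfl⟩, v, ?_, ?_, fun s => ?_, ?_⟩
  · obtain ⟨g, hg, rfl⟩ := Bm.rd_surj P u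
    obtain ⟨b, rfl⟩ := (p g).1 hg
    exact ⟨_, ej b⟩
  · rw [← Bm.rd_const, const_germ X (i η), const_germ S η, ← ov]
    refine Eq.trans (congrArg (fun u => j (toK η u)) ?_) (v η _)
    exact (Scheme.Hom.germ_stalkMap_apply i ⊤ η trivial _).symm
  · rintro s _ ⟨b', rfl⟩
    obtain ⟨b, rfl⟩ := i.stalkMap_surjective s b'
    exact ⟨_, ⟨b, rfl⟩, v s b⟩
  · rintro s _ ⟨b, rfl⟩ h
    obtain ⟨a', e, k'⟩ := k s
    obtain ⟨c, rfl⟩ := (k' b).1 ((z s b).1 h)
    refine ⟨c, ?_⟩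
    rw [eq_div_iff t0, ← e, mul_comm]
    exact (map_mul (toK _) a' c).symm
  · obtain ⟨a', e, -⟩ := k s
    exact ⟨a', e⟩
  · rw [← ea]
    exact (z η a).2 ((ka a).2 dvd_rfl)

variable {i : S.X ⟶ X.X} {t g : X.K} {P : Pl X.K} {j : S.K →+* P.κ} {s : Pt S.X} {n : ℕ}

theorem Zr.mem (h : Zr i t P j) (hg : RegAt g (s.map i)) : g ∈ P.ring := by
  obtain ⟨E, p, e⟩ := h.div
  exact (p g).2 (reg_gen (e ▸ (genericPoint_specializes s).map i.continuous) hg)

theorem Zr.dn (h : Zr i t P j) (hg : RegAt g (s.map i)) :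
    ∃ g', RegAt g' s ∧ j g' = P.rd g ∧ (UnAt g' s ↔ UnAt g (s.map i)) := by
  obtain ⟨b, rfl⟩ := hg
  exact ⟨_, ⟨_, rfl⟩, h.val s b,
    Vale.Agent.P270L.S.un_toK.trans ((isUnit_map_iff (i.stalkMap s).hom b).trans Vale.Agent.P270L.S.un_toK.symm)⟩

theorem Zr.ord (h : Zr i t P j) : P.ord t = 1 := by
  obtain ⟨E, p, e⟩ := h.div
  have m : P.t ∈ P.ring := (Pl.ord_nonneg_iff _ P.t_ne).1 (by rw [P.ord_t]; norm_num)
  have a := Pl.ord_nonneg_of_mem _ (h.mem (h.ker _ _ (e ▸ (p _).1 m)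
    ((Bm.rd_zero_iff P m).2 (.inr (by rw [P.ord_t]; norm_num)))))
  have b := ((Bm.rd_zero_iff P (h.mem (h.reg (genericPoint S.X)))).1 h.van).resolve_left h.t0
  rw [Pl.ord_div _ P.t_ne h.t0, P.ord_t] at a
  omega

theorem Zr.tower (h : Zr i t P j) : letI := j.toAlgebra; IsScalarTower ℂ S.K P.κ :=
  letI := j.toAlgebra
  .of_algebraMap_eq fun c => (h.cst c).symm

/-- the identification as an isomorphism of algebras -/
def Zr.iso (h : Zr i t P j) : S.K ≃ₐ[ℂ] P.κ :=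
  AlgEquiv.ofBijective { j with commutes' := h.cst } ⟨j.injective, h.sur⟩

/-- no ramification -/
theorem Zr.e_one (h : Zr i t P j) {Q : Pl P.κ} {R : Pl S.K} (l : Lies j Q R) (a : S.K) :
    Q.ord (j a) = R.ord a := by
  obtain ⟨c, hc⟩ := h.sur Q.t
  have k := l.ord c
  rw [hc, Q.ord_t] at k
  rw [l.ord, Int.eq_one_of_mul_eq_one_right l.e_pos.le k.symm, one_mul]

end Vale.Agent.P283R.Az
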